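import Mathlib

/-!
P110: product Littlewood polynomials with a factor of bounded length are not ultraflat.
-/

namespace Vale.Agent.P110

open Finset Complex ComplexConjugate

/-- A real polynomial of length `n` evaluated at a complex number. -/
noncomputable def ev (n : ℕ) (a : ℕ → ℝ) (z : ℂ) : ℂ := ∑ i ∈ range n, (a i : ℂ) * z ^ i

theorem parseval (m : ℕ) (hm : 0 < m) (a : ℕ → ℝ) (z : ℂ) (hz : ‖z‖ = 1) (ζ : ℂ)
    (hζ : IsPrimitiveRoot ζ m) :
    ∑ j ∈ range m, ‖ev m a (ζ ^ j * z)‖ ^ 2 = m * ∑ i ∈ range m, a i ^ 2 := by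
  have hζ1 : ‖ζ‖ = 1 := Complex.norm_eq_one_of_pow_eq_one hζ.pow_eq_one hm.ne'
  have hcz : conj z = z⁻¹ := (Complex.inv_eq_conj hz).symm
  have hcζ : conj ζ = ζ⁻¹ := (Complex.inv_eq_conj hζ1).symm
  have hz0 : z ≠ 0 := norm_ne_zero_iff.1 (by rw [hz]; norm_num)
  have hζ0 : ζ ≠ 0 := hζ.ne_zero hm.ne'
  apply Complex.ofReal_injective
  push_cast
  simp_rw [← Complex.mul_conj', ev, map_sum, map_mul, map_pow, Complex.conj_ofReal, map_mul,
    map_pow, hcz, hcζ, sum_mul_sum]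
  rw [sum_comm, mul_sum]
  refine sum_congr rfl fun i hi => ?_
  rw [sum_comm, sum_eq_single i]
  · have : ∀ j ∈ range m, ((a i : ℂ) * (ζ ^ j * z) ^ i) * ((a i : ℂ) * (ζ⁻¹ ^ j * z⁻¹) ^ i) =
        (a i : ℂ) ^ 2 := by
      intro j _
      calc _ = (a i : ℂ) ^ 2 * ((ζ * ζ⁻¹) ^ j * (z * z⁻¹)) ^ i := by ring
        _ = _ := by rw [mul_inv_cancel₀ hζ0, mul_inv_cancel₀ hz0]; simp
    rw [sum_congr rfl this, sum_const, card_range, nsmul_eq_mul]
  · intro l hl hli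
    rw [mem_range] at hi hl
    set r : ℂ := ζ ^ i * ζ⁻¹ ^ l
    have hr : r ^ m = 1 := by
      rw [mul_pow, ← pow_mul, ← pow_mul, mul_comm i, mul_comm l, pow_mul, pow_mul, hζ.pow_eq_one,
        inv_pow, hζ.pow_eq_one]
      simp
    have hr1 : r ≠ 1 := by
      intro h
      simp only [r, inv_pow] at h
      rw [mul_inv_eq_one₀ (pow_ne_zero _ hζ0)] at h
      exact hli (hζ.pow_inj hi hl h).symm
    have hsum : ∑ j ∈ range m, r ^ j = 0 := by
      rw [geom_sum_eq hr1, hr, sub_self, zero_div]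
    calc _ = ∑ j ∈ range m, ((a i : ℂ) * (a l : ℂ) * (z ^ i * z⁻¹ ^ l)) * r ^ j :=
          sum_congr rfl fun j _ => by simp only [r]; ring
      _ = 0 := by rw [← mul_sum, hsum, mul_zero]
  · exact fun h => absurd hi h

theorem split_flat (m : ℕ) (hm : 0 < m) (a : ℕ → ℝ) (ha : ∀ i < m, a i ^ 2 = 1) (T : ℂ → ℂ)
    (L U : ℝ) (hL : 0 < L)
    (h : ∀ z : ℂ, ‖z‖ = 1 → L ≤ ‖ev m a z‖ ^ 2 * ‖T (z ^ m)‖ ^ 2 ∧
      ‖ev m a z‖ ^ 2 * ‖T (z ^ m)‖ ^ 2 ≤ U) :
    (∀ w : ℂ, ‖w‖ = 1 → L / m ≤ ‖T w‖ ^ 2 ∧ ‖T w‖ ^ 2 ≤ U / m) ∧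
      (∀ z : ℂ, ‖z‖ = 1 → m * L / U ≤ ‖ev m a z‖ ^ 2 ∧ ‖ev m a z‖ ^ 2 ≤ m * U / L) := by
  obtain ⟨ζ, hζ⟩ : ∃ ζ : ℂ, IsPrimitiveRoot ζ m :=
    ⟨_, Complex.isPrimitiveRoot_exp m hm.ne'⟩
  have hm0 : (0 : ℝ) < m := by exact_mod_cast hm
  have hT : ∀ z : ℂ, ‖z‖ = 1 → L / m ≤ ‖T (z ^ m)‖ ^ 2 ∧ ‖T (z ^ m)‖ ^ 2 ≤ U / m := by
    intro z hz
    have hp := parseval m hm a z hz ζ hζ
    rw [sum_congr rfl fun i hi => ha i (mem_range.1 hi), sum_const, card_range, nsmul_eq_mul,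
      mul_one] at hp
    have hj : ∀ j ∈ range m, L ≤ ‖ev m a (ζ ^ j * z)‖ ^ 2 * ‖T (z ^ m)‖ ^ 2 ∧
        ‖ev m a (ζ ^ j * z)‖ ^ 2 * ‖T (z ^ m)‖ ^ 2 ≤ U := by
      intro j _
      have h1 : ‖ζ ^ j * z‖ = 1 := by
        rw [norm_mul, norm_pow, Complex.norm_eq_one_of_pow_eq_one hζ.pow_eq_one hm.ne', one_pow,
          one_mul, hz]
      have h2 := h _ h1
      rwa [mul_pow, ← pow_mul, mul_comm j, pow_mul, hζ.pow_eq_one, one_pow, one_mul] at h2
    have h1 := sum_le_sum fun j hj' => (hj j hj').1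
    have h2 := sum_le_sum fun j hj' => (hj j hj').2
    simp only [← sum_mul, hp, sum_const, card_range, nsmul_eq_mul] at h1 h2
    rw [div_le_iff₀ hm0, le_div_iff₀ hm0]
    constructor <;> nlinarith
  have hU : 0 < U := hL.trans_le (le_trans (h 1 (by simp)).1 (h 1 (by simp)).2)
  refine ⟨fun w hw => ?_, fun z hz => ?_⟩
  · obtain ⟨z, hz⟩ : ∃ z : ℂ, z ^ m = w := IsAlgClosed.exists_pow_nat_eq w hm
    subst hz
    refine hT z ((pow_left_inj₀ (norm_nonneg z) zero_le_one hm.ne').1 ?_)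
    rw [← norm_pow, hw, one_pow]
  · obtain ⟨h1, h2⟩ := h z hz
    obtain ⟨h3, h4⟩ := hT z hz
    rw [div_le_iff₀ hm0] at h3
    rw [le_div_iff₀ hm0] at h4
    rw [div_le_iff₀ hU, le_div_iff₀ hL]
    constructor <;> nlinarith [sq_nonneg ‖ev m a z‖]

open Polynomial in
theorem not_constant_modulus (m : ℕ) (hm : 2 ≤ m) (q : ℕ → ℝ) (h0 : q 0 ≠ 0) (h1 : q (m - 1) ≠ 0) :
    ∃ z : ℂ, ‖z‖ = 1 ∧ ‖ev m q z‖ ^ 2 ≠ m := by
  by_contra h
  push Not at h
  set P : ℂ[X] := ∑ i ∈ range m, Polynomial.C (q i : ℂ) * X ^ i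
  set R : ℂ[X] := ∑ i ∈ range m, Polynomial.C (q i : ℂ) * X ^ (m - 1 - i)
  have hev : ∀ z : ℂ, ‖z‖ = 1 → (P * R).eval z =
      (Polynomial.C (m : ℂ) * X ^ (m - 1)).eval z := by
    intro z hz
    have hz0 : z ≠ 0 := norm_ne_zero_iff.1 (by rw [hz]; norm_num)
    have hP : P.eval z = ev m q z := by simp [P, ev, eval_finsetSum]
    have hR : R.eval z = z ^ (m - 1) * conj (ev m q z) := by
      simp only [R, ev, eval_finsetSum, map_sum, mul_sum, Polynomial.eval_mul, Polynomial.eval_C,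
        Polynomial.eval_pow, Polynomial.eval_X, map_mul, map_pow, Complex.conj_ofReal,
        (Complex.inv_eq_conj hz).symm]
      refine sum_congr rfl fun i hi => ?_
      rw [mem_range] at hi
      rw [pow_sub₀ z hz0 (by omega), inv_pow]
      ring
    rw [Polynomial.eval_mul, hP, hR, Polynomial.eval_mul, Polynomial.eval_C, Polynomial.eval_pow,
      Polynomial.eval_X, mul_left_comm, Complex.mul_conj', mul_comm (m : ℂ)]
    congr 1
    exact_mod_cast h z hz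
  have heq : P * R = Polynomial.C (m : ℂ) * X ^ (m - 1) := by
    refine Polynomial.eq_of_infinite_eval_eq _ _ (Set.Infinite.mono (fun z hz => hev z hz) ?_)
    have hinj : Function.Injective fun n : ℕ => Complex.exp ((n : ℝ) * Complex.I) := by
      intro x y hxy
      rw [Complex.exp_eq_exp_iff_exists_int] at hxy
      obtain ⟨k, hk⟩ := hxy
      have h2 := congrArg Complex.im hk
      simp at h2
      rcases eq_or_ne k 0 with rfl | hk0
      · simp at h2; exact_mod_cast h2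
      · exfalso
        have : Irrational ((k : ℝ) * (2 * Real.pi)) := by
          rw [← mul_assoc, show (k : ℝ) * 2 = ((2 * k : ℤ) : ℝ) by push_cast; ring]
          exact irrational_pi.intCast_mul (by omega)
        exact this ⟨((x : ℤ) - y : ℤ), by push_cast; linarith⟩
    exact Set.infinite_of_injective_forall_mem hinj fun n => Complex.norm_exp_ofReal_mul_I _
  have hc := congrArg (fun p => p.coeff 0) heq
  simp only [Polynomial.mul_coeff_zero, Polynomial.coeff_X_pow,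
    P, R, Polynomial.finsetSum_coeff] at hc
  rw [sum_eq_single 0 (fun i _ hi => by simp [Ne.symm hi])
      (fun h => absurd (mem_range.2 (by omega)) h),
    sum_eq_single (m - 1) (fun i hi hne => by
      rw [mem_range] at hi
      rw [if_neg (by omega), mul_zero]) (fun h => absurd (mem_range.2 (by omega)) h),
    if_neg (by omega : ¬ 0 = m - 1)] at hc
  simp [h0, h1] at hc

theorem exists_gap (m : ℕ) (hm : 2 ≤ m) :
    ∃ η : ℝ, 0 < η ∧ ∀ q : ℕ → ℝ, (∀ i < m, q i ^ 2 = 1) →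
      ∃ z : ℂ, ‖z‖ = 1 ∧ η ≤ |‖ev m q z‖ ^ 2 - m| := by
  classical
  let pat : (Fin m → Bool) → ℕ → ℝ := fun s i => if h : i < m then (if s ⟨i, h⟩ then 1 else -1) else 0
  have hne : ∀ s, ∃ z : ℂ, ‖z‖ = 1 ∧ ‖ev m (pat s) z‖ ^ 2 ≠ m := fun s => by
    refine not_constant_modulus m hm _ ?_ ?_
    · simp only [pat, dif_pos (show 0 < m by omega)]; split_ifs <;> norm_num
    · simp only [pat, dif_pos (show m - 1 < m by omega)]; split_ifs <;> norm_num
  choose z hz hz' using hne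
  obtain ⟨s0, -, hs0⟩ := Finset.exists_min_image (univ : Finset (Fin m → Bool))
    (fun s => |‖ev m (pat s) (z s)‖ ^ 2 - (m : ℝ)|) univ_nonempty
  refine ⟨_, abs_pos.2 (sub_ne_zero.2 (hz' s0)), fun q hq => ?_⟩
  let s : Fin m → Bool := fun i => decide (q i = 1)
  have he : ev m q (z s) = ev m (pat s) (z s) := by
    refine sum_congr rfl fun i hi => ?_
    rw [mem_range] at hi
    congr 2
    simp only [pat, dif_pos hi, s]
    rcases sq_eq_one_iff.1 (hq i hi) with h | h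
    · simp [h]
    · simp [h]
  exact ⟨z s, hz s, he ▸ hs0 s (mem_univ _)⟩

theorem no_flat_product (m : ℕ) (hm : 2 ≤ m) :
    ∃ c : ℝ, 0 < c ∧ ∀ (k r : ℕ) (a q b : ℕ → ℝ), 0 < k → 0 < r → (∀ i < k, a i ^ 2 = 1) →
      (∀ i < m, q i ^ 2 = 1) → (∀ i < r, b i ^ 2 = 1) →
      ∃ z : ℂ, ‖z‖ = 1 ∧
        c * Real.sqrt (k * m * r) < |‖(∑ i ∈ range k, (a i : ℂ) * z ^ i) *
          (∑ j ∈ range m, (q j : ℂ) * z ^ (k * j)) *
          (∑ l ∈ range r, (b l : ℂ) * z ^ (k * m * l))‖ - Real.sqrt (k * m * r)| := by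
  obtain ⟨η, hη, hgap⟩ := exists_gap m hm
  have hm0 : (0 : ℝ) < m := by exact_mod_cast (show 0 < m by omega)
  refine ⟨min (1 / 4) (η / (16 * m)), by positivity, fun k r a q b hk hr ha hq hb => ?_⟩
  set c := min (1 / 4 : ℝ) (η / (16 * m))
  have hc0 : 0 < c := by positivity
  have hc1 : c ≤ 1 / 4 := min_le_left _ _
  have hc2 : c * (16 * m) ≤ η := (le_div_iff₀ (by positivity)).1 (min_le_right _ _)
  by_contra h
  push Not at h
  set N : ℝ := (k : ℝ) * m * r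
  have hN : 0 < N := by positivity
  set L := (1 - c) ^ 2 * N
  set U := (1 + c) ^ 2 * N
  have hL : 0 < L := by
    have : 0 < 1 - c := by linarith
    positivity
  let T : ℂ → ℂ := fun w => ev m q w * ev r b (w ^ m)
  have hflat : ∀ z : ℂ, ‖z‖ = 1 → L ≤ ‖ev k a z‖ ^ 2 * ‖T (z ^ k)‖ ^ 2 ∧
      ‖ev k a z‖ ^ 2 * ‖T (z ^ k)‖ ^ 2 ≤ U := by
    intro z hz
    have h1 := h z hz
    have he : (∑ i ∈ range k, (a i : ℂ) * z ^ i) * (∑ j ∈ range m, (q j : ℂ) * z ^ (k * j)) *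
        (∑ l ∈ range r, (b l : ℂ) * z ^ (k * m * l)) = ev k a z * T (z ^ k) := by
      simp only [T, ev, ← pow_mul, mul_assoc]
    rw [he, abs_le] at h1
    rw [← mul_pow, ← norm_mul]
    have hs := Real.sq_sqrt hN.le
    have hs0 := Real.sqrt_nonneg N
    constructor
    · calc L = ((1 - c) * Real.sqrt N) ^ 2 := by rw [mul_pow, hs]
        _ ≤ _ := pow_le_pow_left₀ (mul_nonneg (by linarith) hs0) (by linarith [h1.1]) 2
    · calc _ ≤ ((1 + c) * Real.sqrt N) ^ 2 :=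
            pow_le_pow_left₀ (norm_nonneg _) (by linarith [h1.2]) 2
        _ = U := by rw [mul_pow, hs]
  obtain ⟨hT, -⟩ := split_flat k hk a ha T L U hL hflat
  obtain ⟨-, hQ⟩ := split_flat m (by omega) q hq (fun w => ev r b w) (L / k) (U / k)
    (by positivity) (fun z hz => by
      rw [← mul_pow, ← norm_mul]
      exact hT z hz)
  obtain ⟨z, hz, hgap'⟩ := hgap q hq
  obtain ⟨h1, h2⟩ := hQ z hz
  have hk0 : (k : ℝ) ≠ 0 := by positivity
  rw [show (m : ℝ) * (L / k) / (U / k) = m * L / U by field_simp] at h1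
  rw [show (m : ℝ) * (U / k) / (L / k) = m * U / L by field_simp] at h2
  have hUL : U ≤ (1 + 8 * c) * L := by
    simp only [U, L]
    nlinarith [mul_nonneg hN.le (mul_nonneg hc0.le (sub_nonneg.2 hc1)),
      mul_nonneg hN.le (mul_nonneg hc0.le (mul_nonneg hc0.le (sub_nonneg.2 hc1)))]
  have hU : 0 < U := by positivity
  have hup : ‖ev m q z‖ ^ 2 ≤ m * (1 + 8 * c) :=
    h2.trans (by rw [div_le_iff₀ hL]; nlinarith)
  have hdown : m * (1 - 8 * c) ≤ ‖ev m q z‖ ^ 2 := by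
    refine le_trans ?_ h1
    rw [le_div_iff₀ hU]
    nlinarith [mul_nonneg hm0.le hL.le, mul_nonneg hm0.le hU.le, hUL, mul_nonneg hc0.le hc0.le,
      mul_nonneg (mul_nonneg hm0.le hL.le) (mul_nonneg hc0.le hc0.le)]
  have : |‖ev m q z‖ ^ 2 - m| ≤ 8 * c * m := abs_le.2 ⟨by linarith, by linarith⟩
  nlinarith

end Vale.Agent.P110
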